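import Vale.Agent.P141.H818.Ent2

/-!
# P141, line (A): the entropy functional, one node

* `fm_swap`, `En_swap`: the same entropy on both sides of a slot;
* `ent_node`: middle step, average of two halves and move `1 + E`, `1 - E` with a drift;
* `ent_outer`: outer step.
-/

namespace Vale.Agent.P141.H818

open Matrix Finset

noncomputable section

set_option linter.unusedSectionVars false

variable {n : Type*} [Fintype n] [DecidableEq n] {m : Type*} [Fintype m] [DecidableEq m]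

/-! ### two sides -/

theorem fm_swap (S : Matrix m n ℝ) (φ : ℝ → ℝ) : S * fm φ (Sᵀ * S) = fm φ (S * Sᵀ) * S := by
  have hX : (Sᵀ * S).IsHermitian := by
    rw [Matrix.IsHermitian, Matrix.conjTranspose_eq_transpose_of_trivial, Matrix.transpose_mul,
      Matrix.transpose_transpose]
  have hY : (S * Sᵀ).IsHermitian := by
    rw [Matrix.IsHermitian, Matrix.conjTranspose_eq_transpose_of_trivial, Matrix.transpose_mul,
      Matrix.transpose_transpose]
  obtain ⟨U, w, hU, hU', eX, fX, -⟩ := frame hX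
  obtain ⟨V, z, hV, hV', eY, fY, -⟩ := frame hY
  have h : diagonal z * (Vᵀ * S * U) = (Vᵀ * S * U) * diagonal w := by
    have a1 : diagonal z * (Vᵀ * S * U) = Vᵀ * (S * Sᵀ) * S * U := by
      conv_rhs => rw [eY]
      simp only [fc, id]
      rw [show Vᵀ * (V * diagonal (fun i => z i) * Vᵀ) * S * U =
        (Vᵀ * V) * (diagonal (fun i => z i) * (Vᵀ * S * U)) by simp only [Matrix.mul_assoc], hV,
        Matrix.one_mul]
    have a2 : (Vᵀ * S * U) * diagonal w = Vᵀ * S * (Sᵀ * S) * U := by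
      conv_rhs => rw [eX]
      simp only [fc, id]
      rw [show Vᵀ * S * (U * diagonal (fun i => w i) * Uᵀ) * U =
        (Vᵀ * S * U) * (diagonal (fun i => w i) * (Uᵀ * U)) by simp only [Matrix.mul_assoc], hU,
        Matrix.mul_one]
    rw [a1, a2]
    simp only [Matrix.mul_assoc]
  have hφ : diagonal (fun i => φ (z i)) * (Vᵀ * S * U) =
      (Vᵀ * S * U) * diagonal (fun j => φ (w j)) := by
    ext i j
    have hij := congrFun (congrFun h i) j
    rw [diagonal_mul, mul_diagonal] at hij ⊢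
    rcases eq_or_ne ((Vᵀ * S * U) i j) 0 with h0 | h0
    · rw [h0]; ring
    · have : z i = w j := by
        have h1 : (Vᵀ * S * U) i j * z i = (Vᵀ * S * U) i j * w j := by rw [← hij]; ring
        exact mul_left_cancel₀ h0 h1
      rw [this]; ring
  calc S * fm φ (Sᵀ * S) = (V * Vᵀ) * S * (U * diagonal (fun j => φ (w j)) * Uᵀ) := by
        rw [fX, hV', Matrix.one_mul]; rfl
    _ = V * ((Vᵀ * S * U) * diagonal (fun j => φ (w j))) * Uᵀ := by
        simp only [Matrix.mul_assoc]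
    _ = V * (diagonal (fun i => φ (z i)) * (Vᵀ * S * U)) * Uᵀ := by rw [hφ]
    _ = (V * diagonal (fun i => φ (z i)) * Vᵀ) * S * (U * Uᵀ) := by
        simp only [Matrix.mul_assoc]
    _ = fm φ (S * Sᵀ) * S := by rw [hU', Matrix.mul_one, fY]; rfl

theorem gram_psd (S : Matrix m n ℝ) : (Sᵀ * S).PosSemidef := by
  have := posSemidef_conjTranspose_mul_self S
  rwa [Matrix.conjTranspose_eq_transpose_of_trivial] at this

theorem gram_psd' (S : Matrix m n ℝ) : (S * Sᵀ).PosSemidef := by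
  have := posSemidef_self_mul_conjTranspose S
  rwa [Matrix.conjTranspose_eq_transpose_of_trivial] at this

theorem tr_swap (S : Matrix m n ℝ) {φ : ℝ → ℝ} (h0 : φ 0 = 0) :
    (fm φ (Sᵀ * S)).trace = (fm φ (S * Sᵀ)).trace := by
  have hφ : ∀ x, x * (φ x / x) = φ x := by
    intro x
    rcases eq_or_ne x 0 with h | h
    · rw [h, h0]; ring
    · field_simp
  have e1 : fm φ (Sᵀ * S) = Sᵀ * S * fm (fun x => φ x / x) (Sᵀ * S) := by
    conv_rhs => rw [← fm_id (gram_psd S).isHermitian]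
    rw [fm_id (gram_psd S).isHermitian]
    have := fm_mul (gram_psd S).isHermitian (fun x => x) (fun x => φ x / x)
    rw [fm_id (gram_psd S).isHermitian] at this
    rw [this]
    congr 1
    funext x
    exact (hφ x).symm
  have e2 : fm φ (S * Sᵀ) = fm (fun x => φ x / x) (S * Sᵀ) * (S * Sᵀ) := by
    have := fm_mul (gram_psd' S).isHermitian (fun x => φ x / x) (fun x => x)
    rw [fm_id (gram_psd' S).isHermitian] at this
    rw [this]
    congr 1
    funext x
    rw [mul_comm]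
    exact (hφ x).symm
  rw [e1, e2, Matrix.mul_assoc, fm_swap, Matrix.trace_mul_comm, Matrix.mul_assoc]

/-- **the entropy is the same on both sides** -/
theorem En_swap {δ : ℝ} (hδ : 0 < δ) (S : Matrix m n ℝ) : En δ (Sᵀ * S) = En δ (S * Sᵀ) :=
  tr_swap S (ff_zero δ hδ)

/-- the cap on one side is the cap on the other side -/
theorem cap_swap {S : Matrix m n ℝ} {T : ℝ}
    (h : (T • (1 : Matrix n n ℝ) - Sᵀ * S).PosSemidef) (hT : 0 ≤ T) :
    (T • (1 : Matrix m m ℝ) - S * Sᵀ).PosSemidef := by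
  obtain ⟨U, w, hU, hU', eY, fY, wY⟩ := frame (gram_psd' S).isHermitian
  have hw : ∀ i, 0 ≤ w i := fun i => by rw [wY]; exact (gram_psd' S).eigenvalues_nonneg i
  -- the eigenvalues are at most `T`
  have key : ∀ i, w i ≤ T := by
    intro i
    by_contra hi
    push Not at hi
    have hi0 : 0 < w i := lt_of_le_of_lt hT hi
    set u : m → ℝ := fun a => U a i with hu
    have hu1 : u ⬝ᵥ u = 1 := by
      have := congrFun (congrFun hU i) i
      rw [Matrix.mul_apply, Matrix.one_apply_eq] at this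
      rw [← this]
      simp only [dotProduct, Matrix.transpose_apply, hu]
    have hu2 : (S * Sᵀ) *ᵥ u = w i • u := by
      have h1 : (S * Sᵀ) * U = U * diagonal w := by
        conv_lhs => rw [eY]
        simp only [fc, id]
        rw [Matrix.mul_assoc, Matrix.mul_assoc, hU, Matrix.mul_one]
      funext a
      have := congrFun (congrFun h1 a) i
      rw [mul_diagonal, Matrix.mul_apply] at this
      simp only [Matrix.mulVec, dotProduct, Pi.smul_apply, smul_eq_mul, hu]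
      rw [this]; ring
    have h2 := h.dotProduct_mulVec_nonneg (Sᵀ *ᵥ u)
    simp only [star_trivial] at h2
    have h3 : (Sᵀ *ᵥ u) ⬝ᵥ (Sᵀ *ᵥ u) = w i := by
      rw [Matrix.dotProduct_mulVec, ← Matrix.mulVec_transpose, Matrix.transpose_transpose,
        Matrix.mulVec_mulVec, hu2, smul_dotProduct, hu1, smul_eq_mul, mul_one]
    have h4 : (Sᵀ *ᵥ u) ⬝ᵥ ((Sᵀ * S) *ᵥ (Sᵀ *ᵥ u)) = w i * w i := by
      rw [← Matrix.mulVec_mulVec, Matrix.mulVec_mulVec u S Sᵀ, hu2, Matrix.mulVec_smul,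
        dotProduct_smul, h3, smul_eq_mul]
    rw [Matrix.sub_mulVec, dotProduct_sub, Matrix.smul_mulVec, Matrix.one_mulVec, dotProduct_smul,
      h3, h4, smul_eq_mul] at h2
    nlinarith
  have h5 : T • (1 : Matrix m m ℝ) - S * Sᵀ = U * diagonal (fun i => T - w i) * Uᵀ := by
    conv_lhs => rw [eY, ← hU']
    simp only [fc, id]
    rw [← diagonal_sub, Matrix.mul_sub, Matrix.sub_mul]
    congr 1
    have : diagonal (fun _ : m => T) = T • (1 : Matrix m m ℝ) := by
      rw [← diagonal_one, ← diagonal_smul]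
      congr 1
      funext i
      simp
    rw [this, Matrix.mul_smul, Matrix.mul_one, Matrix.smul_mul]
  rw [h5]
  have h6 : (diagonal (fun i => T - w i) : Matrix m m ℝ).PosSemidef :=
    Matrix.PosSemidef.diagonal fun i => sub_nonneg.2 (key i)
  have := h6.mul_mul_conjTranspose_same U
  rwa [Matrix.conjTranspose_eq_transpose_of_trivial] at this

/-! ### traces against positive matrices -/

theorem diag_nonneg' {P : Matrix n n ℝ} (hP : P.PosSemidef) (U : Matrix n n ℝ) (i : n) :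
    0 ≤ (Uᵀ * P * U) i i := by
  have := hP.conjTranspose_mul_mul_same U
  rw [Matrix.conjTranspose_eq_transpose_of_trivial] at this
  exact this.diag_nonneg

theorem tr_fm_nonneg {A : Matrix n n ℝ} (hA : A.PosSemidef) {g : ℝ → ℝ} (hg : ∀ x, 0 ≤ x → 0 ≤ g x)
    {P : Matrix n n ℝ} (hP : P.PosSemidef) : 0 ≤ (fm g A * P).trace := by
  obtain ⟨U, w, -, -, -, fA, hw⟩ := frame hA.isHermitian
  rw [fA, tr_fc_mul]
  exact sum_nonneg fun i _ => mul_nonneg (hg _ (by rw [hw]; exact hA.eigenvalues_nonneg i))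
    (diag_nonneg' hP U i)

theorem tr_fm_le {A : Matrix n n ℝ} (hA : A.PosSemidef) {T L : ℝ}
    (hT : (T • (1 : Matrix n n ℝ) - A).PosSemidef) {g : ℝ → ℝ}
    (hg : ∀ x, 0 ≤ x → x ≤ T → g x ≤ L) {P : Matrix n n ℝ} (hP : P.PosSemidef) :
    (fm g A * P).trace ≤ L * P.trace := by
  obtain ⟨U, w, h1, h2, -, fA, hw⟩ := frame hA.isHermitian
  have e : P.trace = ∑ i, (Uᵀ * P * U) i i := by
    have : P.trace = (Uᵀ * P * U).trace := by
      rw [Matrix.trace_mul_comm, ← Matrix.mul_assoc, h2, Matrix.one_mul]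
    rw [this]; rfl
  rw [fA, tr_fc_mul, e, mul_sum]
  refine sum_le_sum fun i _ => mul_le_mul_of_nonneg_right ?_ (diag_nonneg' hP U i)
  exact hg _ (by rw [hw]; exact hA.eigenvalues_nonneg i)
    (by rw [hw]; exact eig_le hA.isHermitian hT i)

/-! ### size of the entropy -/

theorem ff_nonneg {δ x : ℝ} (hδ : 0 < δ) (hx : 0 ≤ x) : 0 ≤ ff δ x := by
  have := ff_bregman hδ x 0 hx le_rfl
  have h0 : gf δ 0 = 0 := by simp [gf, hδ.ne']
  rw [ff_zero δ hδ, h0] at this
  nlinarith [sq_nonneg (et δ x - et δ 0)]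

theorem ff_le {δ x T L : ℝ} (hδ : 0 < δ) (hx : 0 ≤ x) (hT : x ≤ T) (hL : gf δ T ≤ L) :
    ff δ x ≤ L * x := by
  have h1 : gf δ x ≤ L := (gf_le hδ hx hT).trans hL
  have h2 : gf δ x ≤ x / δ := by
    rw [gf]
    have : (x + δ) / δ = 1 + x / δ := by field_simp; ring
    rw [this]
    have := Real.log_le_sub_one_of_pos (show (0 : ℝ) < 1 + x / δ by positivity)
    linarith
  have h3 : δ * gf δ x ≤ x := by
    have := mul_le_mul_of_nonneg_left h2 hδ.le
    rwa [mul_div_cancel₀ _ hδ.ne'] at this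
  have : ff δ x = x * gf δ x + (δ * gf δ x - x) := by rw [ff, gf]; ring
  rw [this]
  nlinarith

theorem En_nonneg {δ : ℝ} (hδ : 0 < δ) {A : Matrix n n ℝ} (hA : A.PosSemidef) : 0 ≤ En δ A := by
  have := tr_fm_nonneg hA (fun x hx => ff_nonneg hδ hx) (PosSemidef.one (n := n) (R := ℝ))
  rwa [Matrix.mul_one] at this

theorem En_le {δ T L : ℝ} (hδ : 0 < δ) {A : Matrix n n ℝ} (hA : A.PosSemidef)
    (hT : (T • (1 : Matrix n n ℝ) - A).PosSemidef) (hL : gf δ T ≤ L) :
    En δ A ≤ L * A.trace := by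
  have h := tr_conj_le hA hT (φ := ff δ) (ψ := fun x => x) (c := L)
    (fun x hx hx' => ff_le hδ hx hx' hL) (1 : Matrix n n ℝ)
  rwa [fm_id hA.isHermitian, Matrix.one_mul, Matrix.one_mul, Matrix.transpose_one, Matrix.mul_one,
    Matrix.mul_one] at h

/-! ### the move -/

/-- Klein without the remainder -/
theorem klein_ge {δ : ℝ} (hδ : 0 < δ) {A B : Matrix n n ℝ} (hA : A.PosSemidef)
    (hB : B.PosSemidef) : En δ B + (fm (gf δ) B * (A - B)).trace ≤ En δ A := by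
  have h := tr_klein hA hB (fun x y hx hy => ff_bregman hδ x y hx hy)
  have h0 := hs_nonneg (fm (et δ) A - fm (et δ) B)
  simp only [En]
  linarith

/-- first order term on the far side -/
theorem tr_first (δ : ℝ) (S : Matrix m n ℝ) (E : Matrix m m ℝ) :
    (fm (gf δ) (Sᵀ * S) * (Sᵀ * E * S)).trace = (E * fm (th δ) (S * Sᵀ)).trace := by
  have e1 : fm (th δ) (S * Sᵀ) = fm (gf δ) (S * Sᵀ) * (S * Sᵀ) := by
    have := fm_mul (gram_psd' S).isHermitian (gf δ) (fun x => x)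
    rw [fm_id (gram_psd' S).isHermitian] at this
    rw [this]
    congr 1
    funext x
    rw [th, mul_comm]
  rw [e1, ← Matrix.mul_assoc (fm (gf δ) (S * Sᵀ)), ← fm_swap, Matrix.trace_mul_comm]
  calc (Sᵀ * E * S * fm (gf δ) (Sᵀ * S)).trace
      = (Sᵀ * (E * (S * fm (gf δ) (Sᵀ * S)))).trace := by simp only [Matrix.mul_assoc]
    _ = ((E * (S * fm (gf δ) (Sᵀ * S))) * Sᵀ).trace := Matrix.trace_mul_comm _ _
    _ = _ := by simp only [Matrix.mul_assoc]

/-- one child: move by the symmetric form `E` with a drift of size `F` -/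
theorem move_ge {δ T L : ℝ} (hδ : 0 < δ) (hL : gf δ T ≤ L) (S : Matrix m n ℝ)
    (hT : (T • (1 : Matrix n n ℝ) - Sᵀ * S).PosSemidef) (E : Matrix m m ℝ) {X F : Matrix n n ℝ}
    (hX : X.PosSemidef) (hF : F.PosSemidef)
    (h : (X - (Sᵀ * S + Sᵀ * E * S) + F).PosSemidef) :
    En δ (S * Sᵀ) + (E * fm (th δ) (S * Sᵀ)).trace - L * F.trace ≤ En δ X := by
  have k := klein_ge hδ hX (gram_psd S)
  have e : X - Sᵀ * S = Sᵀ * E * S + (X - (Sᵀ * S + Sᵀ * E * S) + F) - F := by abel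
  rw [e, Matrix.mul_sub, Matrix.mul_add, trace_sub, trace_add, tr_first, En_swap hδ] at k
  have k1 := tr_fm_nonneg (gram_psd S) (g := gf δ) (fun x hx => gf_nonneg hδ hx) h
  have k2 := tr_fm_le (gram_psd S) hT (g := gf δ) (fun x hx hx' => (gf_le hδ hx hx').trans hL) hF
  linarith

/-- **the middle step**: halves `S₀`, `S₁` at the old weight, moved by `1 + E` and `1 - E` up to a
drift -/
theorem ent_node {δ T L : ℝ} (hδ : 0 < δ) (hL : gf δ T ≤ L) (h1 : 1 ≤ L) (hT : 0 ≤ T)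
    (S₀ S₁ : Matrix m n ℝ) (hT₀ : (T • (1 : Matrix n n ℝ) - S₀ᵀ * S₀).PosSemidef)
    (hT₁ : (T • (1 : Matrix n n ℝ) - S₁ᵀ * S₁).PosSemidef) {E : Matrix m m ℝ} (hE : Eᵀ = E)
    {X₀ X₁ F₀ F₁ : Matrix n n ℝ} (hX₀ : X₀.PosSemidef) (hX₁ : X₁.PosSemidef)
    (hF₀ : F₀.PosSemidef) (hF₁ : F₁.PosSemidef)
    (h₀ : (X₀ - (S₀ᵀ * S₀ + S₀ᵀ * E * S₀) + F₀).PosSemidef)
    (h₁ : (X₁ - (S₁ᵀ * S₁ - S₁ᵀ * E * S₁) + F₁).PosSemidef) :
    En δ ((1 / 2 : ℝ) • (S₀ * S₀ᵀ + S₁ * S₁ᵀ)) +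
        (1 / 8) * hs (fm (et δ) (S₀ * S₀ᵀ) - fm (et δ) (S₁ * S₁ᵀ)) ≤
      (1 / 2) * (En δ X₀ + En δ X₁) + 18 * L ^ 2 * (hs (E * S₀) + hs (E * S₁)) +
        L / 2 * (F₀.trace + F₁.trace) := by
  have g := gap_ge' hδ (gram_psd' S₀) (gram_psd' S₁)
  have m0 := move_ge hδ hL S₀ hT₀ E hX₀ hF₀ h₀
  have e1 : S₁ᵀ * S₁ - S₁ᵀ * E * S₁ = S₁ᵀ * S₁ + S₁ᵀ * (-E) * S₁ := by
    rw [Matrix.mul_neg, Matrix.neg_mul, sub_eq_add_neg]
  rw [e1] at h₁
  have m1 := move_ge hδ hL S₁ hT₁ (-E) hX₁ hF₁ h₁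
  have t := theta_le hδ hL h1 (gram_psd' S₀) (gram_psd' S₁) (cap_swap hT₀ hT) (cap_swap hT₁ hT) E
  rw [Matrix.mul_sub, trace_sub] at t
  rw [Matrix.neg_mul, trace_neg] at m1
  have e2 : (Eᵀ * (S₀ * S₀ᵀ) * E).trace + (E * (S₁ * S₁ᵀ) * Eᵀ).trace =
      hs (E * S₀) + hs (E * S₁) := by
    rw [hs_eq', hs_eq', hE]
    simp only [Matrix.transpose_mul, hE, Matrix.mul_assoc]
  rw [e2] at t
  set D := hs (fm (et δ) (S₀ * S₀ᵀ) - fm (et δ) (S₁ * S₁ᵀ)) with hD
  set q := hs (E * S₀) + hs (E * S₁) with hq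
  have D0 : 0 ≤ D := hs_nonneg _
  have q0 : 0 ≤ q := add_nonneg (hs_nonneg _) (hs_nonneg _)
  have t1 := (abs_le.1 t).1
  have y : 6 * L * √q * √D ≤ 36 * L ^ 2 * q + (1 / 4) * D := by
    nlinarith [sq_nonneg (6 * L * √q - (1 / 2) * √D), Real.sq_sqrt D0, Real.sq_sqrt q0]
  linarith

/-- **the outer step** -/
theorem ent_outer {δ : ℝ} (hδ : 0 < δ) {P Q : Matrix n n ℝ} (hP : P.PosSemidef)
    (hQ : Q.PosSemidef) :
    En δ ((1 / 2 : ℝ) • (P + Q)) +
      (1 / 2) * (hs (fm (et δ) P - fm (et δ) ((1 / 2 : ℝ) • (P + Q))) +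
      hs (fm (et δ) Q - fm (et δ) ((1 / 2 : ℝ) • (P + Q)))) ≤
      (1 / 2) * (En δ P + En δ Q) := by
  have := gap_ge hδ hP hQ
  linarith

end

end Vale.Agent.P141.H818
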