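import Mathlib

/-!
# P141, line (A): the entropy functional of a moving slot, matrix part

`fm φ A` = function of a symmetric matrix.  `tr_klein`: Klein inequality with a square root
remainder.  `ent_node`: one node of the entropy functional, average of the two halves and move by
`1 + N`, `1 - N`.
-/

namespace Vale.Agent.P141.H818

open Matrix Finset

noncomputable section

variable {n : Type*} [Fintype n] [DecidableEq n]

/-! ### functional calculus -/

/-- functional calculus in the frame `U`, eigenvalues `w` -/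
def fc (U : Matrix n n ℝ) (w : n → ℝ) (φ : ℝ → ℝ) : Matrix n n ℝ :=
  U * diagonal (fun i => φ (w i)) * Uᵀ

/-- function of a symmetric matrix -/
def fm (φ : ℝ → ℝ) (A : Matrix n n ℝ) : Matrix n n ℝ :=
  if h : A.IsHermitian then fc (h.eigenvectorUnitary : Matrix n n ℝ) h.eigenvalues φ else 0

/-- Hilbert-Schmidt square -/
def hs {m : Type*} [Fintype m] (M : Matrix m n ℝ) : ℝ := ∑ i, ∑ j, M i j ^ 2

theorem hs_nonneg {m : Type*} [Fintype m] (M : Matrix m n ℝ) : 0 ≤ hs M :=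
  sum_nonneg fun _ _ => sum_nonneg fun _ _ => sq_nonneg _

theorem hs_eq {m : Type*} [Fintype m] (M : Matrix m n ℝ) : hs M = (Mᵀ * M).trace := by
  simp only [hs, Matrix.trace, Matrix.diag_apply, Matrix.mul_apply, Matrix.transpose_apply]
  rw [sum_comm]
  exact sum_congr rfl fun i _ => sum_congr rfl fun j _ => by ring

theorem hs_eq' {m : Type*} [Fintype m] (M : Matrix m n ℝ) : hs M = (M * Mᵀ).trace := by
  simp only [hs, Matrix.trace, Matrix.diag_apply, Matrix.mul_apply, Matrix.transpose_apply]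
  exact sum_congr rfl fun i _ => sum_congr rfl fun j _ => by ring

/-- Cauchy-Schwarz for the trace -/
theorem tr_cs {m : Type*} [Fintype m] (M : Matrix n m ℝ) (K : Matrix m n ℝ) :
    |(M * K).trace| ≤ √(hs Mᵀ) * √(hs K) := by
  have h1 : (M * K).trace = ∑ p : n × m, M p.1 p.2 * K p.2 p.1 := by
    simp only [Matrix.trace, Matrix.diag_apply, Matrix.mul_apply]
    rw [← Finset.univ_product_univ, sum_product]
  have h2 : hs Mᵀ = ∑ p : n × m, M p.1 p.2 ^ 2 := by
    simp only [hs, Matrix.transpose_apply]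
    rw [sum_comm, ← Finset.univ_product_univ, sum_product]
  have h3 : hs K = ∑ p : n × m, K p.2 p.1 ^ 2 := by
    simp only [hs]
    rw [sum_comm, ← Finset.univ_product_univ, sum_product]
  rw [h1, h2, h3, ← Real.sqrt_sq_eq_abs, ← Real.sqrt_mul (sum_nonneg fun _ _ => sq_nonneg _)]
  exact Real.sqrt_le_sqrt (sum_mul_sq_le_sq_mul_sq _ _ _)

/-- the frame of a symmetric matrix -/
theorem frame {A : Matrix n n ℝ} (hA : A.IsHermitian) :
    ∃ (U : Matrix n n ℝ) (w : n → ℝ), Uᵀ * U = 1 ∧ U * Uᵀ = 1 ∧ A = fc U w id ∧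
      (∀ φ, fm φ A = fc U w φ) ∧ w = hA.eigenvalues := by
  refine ⟨(hA.eigenvectorUnitary : Matrix n n ℝ), hA.eigenvalues, ?_, ?_, ?_, ?_, rfl⟩
  · have := Unitary.coe_star_mul_self hA.eigenvectorUnitary
    simpa [Matrix.star_eq_conjTranspose, Matrix.conjTranspose_eq_transpose_of_trivial] using this
  · have := Unitary.coe_mul_star_self hA.eigenvectorUnitary
    simpa [Matrix.star_eq_conjTranspose, Matrix.conjTranspose_eq_transpose_of_trivial] using this
  · have h := hA.spectral_theorem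
    rw [Unitary.conjStarAlgAut_apply] at h
    simpa [fc, Matrix.star_eq_conjTranspose, Matrix.conjTranspose_eq_transpose_of_trivial,
      Function.comp_def] using h
  · intro φ
    rw [fm, dif_pos hA]

theorem fc_trans (U : Matrix n n ℝ) (w : n → ℝ) (φ : ℝ → ℝ) : (fc U w φ)ᵀ = fc U w φ := by
  simp [fc, Matrix.transpose_mul, Matrix.mul_assoc]

theorem fc_mul {U : Matrix n n ℝ} (h : Uᵀ * U = 1) (w : n → ℝ) (φ ψ : ℝ → ℝ) :
    fc U w φ * fc U w ψ = fc U w (fun x => φ x * ψ x) := by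
  calc fc U w φ * fc U w ψ
      = U * diagonal (fun i => φ (w i)) * (Uᵀ * U) * diagonal (fun i => ψ (w i)) * Uᵀ := by
        simp only [fc, Matrix.mul_assoc]
    _ = U * (diagonal (fun i => φ (w i)) * diagonal (fun i => ψ (w i))) * Uᵀ := by
        rw [h, Matrix.mul_one]; simp only [Matrix.mul_assoc]
    _ = _ := by rw [diagonal_mul_diagonal]; rfl

theorem fc_sub (U : Matrix n n ℝ) (w : n → ℝ) (φ ψ : ℝ → ℝ) :
    fc U w φ - fc U w ψ = fc U w (fun x => φ x - ψ x) := by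
  simp only [fc]
  rw [← Matrix.sub_mul, ← Matrix.mul_sub, diagonal_sub]

theorem fc_smul (U : Matrix n n ℝ) (w : n → ℝ) (φ : ℝ → ℝ) (c : ℝ) :
    c • fc U w φ = fc U w (fun x => c * φ x) := by
  simp only [fc]
  rw [← Matrix.smul_mul, ← Matrix.mul_smul, ← diagonal_smul]
  rfl

theorem fc_one {U : Matrix n n ℝ} (h : U * Uᵀ = 1) (w : n → ℝ) : fc U w (fun _ => 1) = 1 := by
  simp [fc, h]

/-- trace in the frame with an arbitrary matrix -/
theorem tr_fc_mul (U : Matrix n n ℝ) (w : n → ℝ) (φ : ℝ → ℝ) (M : Matrix n n ℝ) :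
    (fc U w φ * M).trace = ∑ i, φ (w i) * (Uᵀ * M * U) i i := by
  have : (fc U w φ * M).trace = (diagonal (fun i => φ (w i)) * (Uᵀ * M * U)).trace := by
    simp only [fc]
    rw [Matrix.trace_mul_comm, show M * (U * diagonal (fun i => φ (w i)) * Uᵀ) =
      (M * U) * (diagonal (fun i => φ (w i)) * Uᵀ) by simp only [Matrix.mul_assoc],
      Matrix.trace_mul_comm]
    simp only [Matrix.mul_assoc]
  rw [this]
  simp [Matrix.trace, Matrix.diagonal_mul]

/-- the double frame formula -/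
theorem tr_fc_fc (U V : Matrix n n ℝ) (a b : n → ℝ) (φ ψ : ℝ → ℝ) :
    (fc U a φ * fc V b ψ).trace = ∑ i, ∑ j, (Uᵀ * V) i j ^ 2 * (φ (a i) * ψ (b j)) := by
  rw [tr_fc_mul]
  refine sum_congr rfl fun i _ => ?_
  have h : (Uᵀ * fc V b ψ * U) = (Uᵀ * V) * diagonal (fun j => ψ (b j)) * (Uᵀ * V)ᵀ := by
    simp only [fc, Matrix.transpose_mul, Matrix.transpose_transpose, Matrix.mul_assoc]
  rw [h, Matrix.mul_apply, mul_sum]
  refine sum_congr rfl fun j _ => ?_
  rw [Matrix.mul_diagonal, Matrix.transpose_apply]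
  ring

theorem row_sum {U V : Matrix n n ℝ} (h1 : Uᵀ * U = 1) (h2 : V * Vᵀ = 1) (i : n) :
    ∑ j, (Uᵀ * V) i j ^ 2 = 1 := by
  have h : (Uᵀ * V) * (Uᵀ * V)ᵀ = 1 := by
    rw [Matrix.transpose_mul, Matrix.transpose_transpose,
      show Uᵀ * V * (Vᵀ * U) = Uᵀ * (V * Vᵀ) * U by simp only [Matrix.mul_assoc], h2,
      Matrix.mul_one, h1]
  have := congrFun (congrFun h i) i
  rw [Matrix.mul_apply, Matrix.one_apply_eq] at this
  rw [← this]
  exact sum_congr rfl fun j _ => by rw [Matrix.transpose_apply]; ring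

theorem col_sum {U V : Matrix n n ℝ} (h1 : U * Uᵀ = 1) (h2 : Vᵀ * V = 1) (j : n) :
    ∑ i, (Uᵀ * V) i j ^ 2 = 1 := by
  have h : (Uᵀ * V)ᵀ * (Uᵀ * V) = 1 := by
    rw [Matrix.transpose_mul, Matrix.transpose_transpose,
      show Vᵀ * U * (Uᵀ * V) = Vᵀ * (U * Uᵀ) * V by simp only [Matrix.mul_assoc], h1,
      Matrix.mul_one, h2]
  have := congrFun (congrFun h j) j
  rw [Matrix.mul_apply, Matrix.one_apply_eq] at this
  rw [← this]
  exact sum_congr rfl fun j _ => by rw [Matrix.transpose_apply]; ring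

theorem tr_left {U V : Matrix n n ℝ} (hU : Uᵀ * U = 1) (hV : V * Vᵀ = 1) (a : n → ℝ)
    (φ : ℝ → ℝ) : (fc U a φ).trace = ∑ i, ∑ j, (Uᵀ * V) i j ^ 2 * φ (a i) := by
  have h : (fc U a φ).trace = ∑ i, φ (a i) := by
    have := tr_fc_mul U a φ 1
    rw [Matrix.mul_one, Matrix.mul_one, hU] at this
    simpa using this
  rw [h]
  exact sum_congr rfl fun i _ => by rw [← sum_mul, row_sum hU hV, one_mul]

theorem tr_right {U V : Matrix n n ℝ} (hU : U * Uᵀ = 1) (hV : Vᵀ * V = 1) (b : n → ℝ)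
    (ψ : ℝ → ℝ) : (fc V b ψ).trace = ∑ i, ∑ j, (Uᵀ * V) i j ^ 2 * ψ (b j) := by
  have h : (fc V b ψ).trace = ∑ j, ψ (b j) := by
    have := tr_fc_mul V b ψ 1
    rw [Matrix.mul_one, Matrix.mul_one, hV] at this
    simpa using this
  rw [h, sum_comm]
  exact sum_congr rfl fun j _ => by rw [← sum_mul, col_sum hU hV, one_mul]

/-- Hilbert-Schmidt distance of two functions -/
theorem hs_sub {U V : Matrix n n ℝ} (hU : Uᵀ * U = 1) (hU' : U * Uᵀ = 1) (hV : Vᵀ * V = 1)
    (hV' : V * Vᵀ = 1) (a b : n → ℝ) (φ ψ : ℝ → ℝ) :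
    hs (fc U a φ - fc V b ψ) = ∑ i, ∑ j, (Uᵀ * V) i j ^ 2 * (φ (a i) - ψ (b j)) ^ 2 := by
  have e : (fc U a φ - fc V b ψ)ᵀ * (fc U a φ - fc V b ψ) =
      fc U a (fun x => φ x * φ x) - fc U a φ * fc V b ψ - fc V b ψ * fc U a φ +
        fc V b (fun x => ψ x * ψ x) := by
    rw [Matrix.transpose_sub, fc_trans, fc_trans, ← fc_mul hU, ← fc_mul hV]
    noncomm_ring
  rw [hs_eq, e, trace_add, trace_sub, trace_sub, Matrix.trace_mul_comm (fc V b ψ) (fc U a φ),
    tr_left hU hV', tr_right hU' hV, tr_fc_fc, ← sum_sub_distrib, ← sum_sub_distrib,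
    ← sum_add_distrib]
  refine sum_congr rfl fun i _ => ?_
  rw [← sum_sub_distrib, ← sum_sub_distrib, ← sum_add_distrib]
  exact sum_congr rfl fun j _ => by ring

/-- **Klein**, abstract form with a remainder -/
theorem tr_klein {A B : Matrix n n ℝ} (hA : A.PosSemidef) (hB : B.PosSemidef) {f g η : ℝ → ℝ}
    (h : ∀ x y : ℝ, 0 ≤ x → 0 ≤ y → (η x - η y) ^ 2 ≤ f x - f y - g y * (x - y)) :
    hs (fm η A - fm η B) ≤ (fm f A).trace - (fm f B).trace - (fm g B * (A - B)).trace := by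
  obtain ⟨U, a, hU, hU', eA, fA, wA⟩ := frame hA.isHermitian
  obtain ⟨V, b, hV, hV', eB, fB, wB⟩ := frame hB.isHermitian
  have ha : ∀ i, 0 ≤ a i := fun i => by rw [wA]; exact hA.eigenvalues_nonneg i
  have hb : ∀ i, 0 ≤ b i := fun i => by rw [wB]; exact hB.eigenvalues_nonneg i
  have e1 : (fm g B * (A - B)).trace =
      ∑ i, ∑ j, (Uᵀ * V) i j ^ 2 * (g (b j) * a i - g (b j) * b j) := by
    rw [Matrix.mul_sub, trace_sub, fB g]
    have h1 : (fc V b g * A).trace = ∑ i, ∑ j, (Uᵀ * V) i j ^ 2 * (g (b j) * a i) := by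
      conv_lhs => rw [eA]
      rw [Matrix.trace_mul_comm, tr_fc_fc]
      exact sum_congr rfl fun i _ => sum_congr rfl fun j _ => by simp only [id]; ring
    have h2 : (fc V b g * B).trace = ∑ i, ∑ j, (Uᵀ * V) i j ^ 2 * (g (b j) * b j) := by
      conv_lhs => rw [eB]
      rw [fc_mul hV, tr_right hU' hV]
      rfl
    rw [h1, h2, ← sum_sub_distrib]
    refine sum_congr rfl fun i _ => ?_
    rw [← sum_sub_distrib]
    exact sum_congr rfl fun j _ => by ring
  rw [e1, fA, fB, fA, fB, hs_sub hU hU' hV hV', tr_left hU hV', tr_right hU' hV,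
    ← sum_sub_distrib, ← sum_sub_distrib]
  refine sum_le_sum fun i _ => ?_
  rw [← sum_sub_distrib, ← sum_sub_distrib]
  refine sum_le_sum fun j _ => ?_
  have := mul_le_mul_of_nonneg_left (h (a i) (b j) (ha i) (hb j)) (sq_nonneg ((Uᵀ * V) i j))
  nlinarith [this]

/-- functions which are Lipschitz in terms of `η` -/
theorem hs_lip {A B : Matrix n n ℝ} (hA : A.PosSemidef) (hB : B.PosSemidef) {φ η : ℝ → ℝ}
    {T c : ℝ} (hA' : (T • (1 : Matrix n n ℝ) - A).PosSemidef)
    (hB' : (T • (1 : Matrix n n ℝ) - B).PosSemidef)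
    (h : ∀ x y : ℝ, 0 ≤ x → x ≤ T → 0 ≤ y → y ≤ T → (φ x - φ y) ^ 2 ≤ c * (η x - η y) ^ 2) :
    hs (fm φ A - fm φ B) ≤ c * hs (fm η A - fm η B) := by
  obtain ⟨U, a, hU, hU', eA, fA, wA⟩ := frame hA.isHermitian
  obtain ⟨V, b, hV, hV', eB, fB, wB⟩ := frame hB.isHermitian
  have ha : ∀ i, 0 ≤ a i := fun i => by rw [wA]; exact hA.eigenvalues_nonneg i
  have hb : ∀ i, 0 ≤ b i := fun i => by rw [wB]; exact hB.eigenvalues_nonneg i
  have top : ∀ {W S : Matrix n n ℝ} {w : n → ℝ}, Wᵀ * W = 1 → S = fc W w id →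
      (T • (1 : Matrix n n ℝ) - S).PosSemidef → ∀ i, w i ≤ T := by
    intro W S w h1 h2 h3 i
    have h4 := h3.conjTranspose_mul_mul_same W
    have h5 : Wᴴ * (T • (1 : Matrix n n ℝ) - S) * W = diagonal (fun i => T - w i) := by
      rw [Matrix.conjTranspose_eq_transpose_of_trivial, Matrix.mul_sub, Matrix.sub_mul,
        Matrix.mul_smul, Matrix.mul_one, Matrix.smul_mul, h1, h2, fc,
        show Wᵀ * (W * diagonal (fun i => id (w i)) * Wᵀ) * W =
          (Wᵀ * W) * diagonal (fun i => id (w i)) * (Wᵀ * W) by simp only [Matrix.mul_assoc], h1,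
        Matrix.one_mul, Matrix.mul_one, ← diagonal_one, ← diagonal_smul, diagonal_sub]
      congr 1
      ext i
      simp
    rw [h5] at h4
    have h6 := (Matrix.posSemidef_diagonal_iff.1 h4) i
    linarith
  have ta := top hU eA hA'
  have tb := top hV eB hB'
  rw [fA, fB, fA, fB, hs_sub hU hU' hV hV', hs_sub hU hU' hV hV', mul_sum]
  refine sum_le_sum fun i _ => ?_
  rw [mul_sum]
  refine sum_le_sum fun j _ => ?_
  have := mul_le_mul_of_nonneg_left (h (a i) (b j) (ha i) (ta i) (hb j) (tb j))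
    (sq_nonneg ((Uᵀ * V) i j))
  nlinarith [this]

end

end Vale.Agent.P141.H818
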