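import Vale.Agent.P141.H818.Ent

/-!
# P141, line (A): the entropy functional, scalar inequalities and one node
-/

namespace Vale.Agent.P141.H818

open Matrix Finset

noncomputable section

/-! ### scalars -/

/-- the square root coordinate -/
def et (δ x : ℝ) : ℝ := √(x + δ)

/-- the derivative of the entropy density -/
def gf (δ x : ℝ) : ℝ := Real.log ((x + δ) / δ)

/-- the entropy density -/
def ff (δ x : ℝ) : ℝ := (x + δ) * Real.log ((x + δ) / δ) - x

/-- first factor of `x * gf δ x` -/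
def fa (δ x : ℝ) : ℝ := x / √(x + δ)

/-- second factor of `x * gf δ x` -/
def fb (δ x : ℝ) : ℝ := √(x + δ) * Real.log ((x + δ) / δ)

theorem gf_nonneg {δ x : ℝ} (hδ : 0 < δ) (hx : 0 ≤ x) : 0 ≤ gf δ x :=
  Real.log_nonneg (by rw [le_div_iff₀ hδ]; linarith)

theorem gf_le {δ x T : ℝ} (hδ : 0 < δ) (hx : 0 ≤ x) (h : x ≤ T) : gf δ x ≤ gf δ T :=
  Real.log_le_log (by positivity) (by gcongr)

theorem ff_zero (δ : ℝ) (hδ : 0 < δ) : ff δ 0 = 0 := by
  simp [ff, hδ.ne']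

/-- the scalar inequality behind the gap -/
theorem ff_bregman {δ : ℝ} (hδ : 0 < δ) (x y : ℝ) (hx : 0 ≤ x) (hy : 0 ≤ y) :
    (et δ x - et δ y) ^ 2 ≤ ff δ x - ff δ y - gf δ y * (x - y) := by
  have hX : 0 < x + δ := by linarith
  have hY : 0 < y + δ := by linarith
  set X := x + δ with hXd
  set Y := y + δ with hYd
  have hsX : 0 < √X := Real.sqrt_pos.2 hX
  have hsY : 0 < √Y := Real.sqrt_pos.2 hY
  have e1 : Real.log (X / δ) = Real.log X - Real.log δ := Real.log_div hX.ne' hδ.ne'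
  have e2 : Real.log (Y / δ) = Real.log Y - Real.log δ := Real.log_div hY.ne' hδ.ne'
  have h1 : Real.log (√Y / √X) ≤ √Y / √X - 1 := Real.log_le_sub_one_of_pos (by positivity)
  have e3 : Real.log (√Y / √X) = (Real.log Y - Real.log X) / 2 := by
    rw [Real.log_div hsY.ne' hsX.ne', Real.log_sqrt hX.le, Real.log_sqrt hY.le]
    ring
  rw [e3] at h1
  have h2 : X * (Real.log Y - Real.log X) ≤ 2 * (√X * √Y - X) := by
    have h3 := mul_le_mul_of_nonneg_left h1 (by positivity : (0 : ℝ) ≤ 2 * X)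
    have h4 : 2 * X * (√Y / √X - 1) = 2 * (√X * √Y - X) := by
      have : X = √X * √X := (Real.mul_self_sqrt hX.le).symm
      field_simp
      nlinarith [Real.mul_self_sqrt hX.le]
    rw [h4] at h3
    linarith
  have e4 : (et δ x - et δ y) ^ 2 = X + Y - 2 * (√X * √Y) := by
    simp only [et, ← hXd, ← hYd]
    nlinarith [Real.mul_self_sqrt hX.le, Real.mul_self_sqrt hY.le]
  rw [e4]
  simp only [ff, gf, ← hXd, ← hYd, e1, e2]
  have ex : x = X - δ := by rw [hXd]; ring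
  have ey : y = Y - δ := by rw [hYd]; ring
  rw [ex, ey]
  nlinarith [h2]

theorem th_eq {δ x : ℝ} (hδ : 0 < δ) (hx : 0 ≤ x) : fa δ x * fb δ x = x * gf δ x := by
  have : √(x + δ) ≠ 0 := (Real.sqrt_pos.2 (by linarith)).ne'
  simp only [fa, fb, gf]
  field_simp

theorem fa_eq {δ x : ℝ} (hδ : 0 < δ) (hx : 0 ≤ x) : fa δ x = et δ x - δ / et δ x := by
  have hp : 0 < x + δ := by linarith
  have : √(x + δ) ≠ 0 := (Real.sqrt_pos.2 hp).ne'
  simp only [fa, et]
  field_simp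
  nlinarith [Real.mul_self_sqrt hp.le]

theorem fa_sq_le {δ x : ℝ} (hδ : 0 < δ) (hx : 0 ≤ x) : fa δ x ^ 2 ≤ x := by
  have hp : 0 < x + δ := by linarith
  rw [fa, div_pow, Real.sq_sqrt hp.le, div_le_iff₀ hp]
  nlinarith

theorem fa_lip {δ : ℝ} (hδ : 0 < δ) (x y : ℝ) (hx : 0 ≤ x) (hy : 0 ≤ y) :
    (fa δ x - fa δ y) ^ 2 ≤ 4 * (et δ x - et δ y) ^ 2 := by
  have hX : 0 < x + δ := by linarith
  have hY : 0 < y + δ := by linarith
  have hsX : 0 < et δ x := Real.sqrt_pos.2 hX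
  have hsY : 0 < et δ y := Real.sqrt_pos.2 hY
  have hx2 : δ ≤ et δ x ^ 2 := by rw [et, Real.sq_sqrt hX.le]; linarith
  have hy2 : δ ≤ et δ y ^ 2 := by rw [et, Real.sq_sqrt hY.le]; linarith
  have hd : δ ≤ et δ x * et δ y := by
    have h1 : δ ^ 2 ≤ (et δ x * et δ y) ^ 2 := by
      rw [mul_pow, pow_two]
      exact mul_le_mul hx2 hy2 hδ.le (by positivity)
    exact (pow_le_pow_iff_left₀ hδ.le (by positivity) (by norm_num)).1 h1
  have e : fa δ x - fa δ y = (et δ x - et δ y) * (1 + δ / (et δ x * et δ y)) := by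
    rw [fa_eq hδ hx, fa_eq hδ hy]
    field_simp
    ring
  have h2 : δ / (et δ x * et δ y) ≤ 1 := by rw [div_le_one (by positivity)]; exact hd
  have h3 : 0 ≤ δ / (et δ x * et δ y) := by positivity
  have h4 : (1 + δ / (et δ x * et δ y)) ^ 2 ≤ 4 := by nlinarith
  rw [e, mul_pow]
  nlinarith [mul_le_mul_of_nonneg_left h4 (sq_nonneg (et δ x - et δ y))]

theorem fb_sq_le {δ x T L : ℝ} (hδ : 0 < δ) (hx : 0 ≤ x) (hT : x ≤ T) (hL : gf δ T ≤ L)
    (h1 : 1 ≤ L) : fb δ x ^ 2 ≤ 2 * L ^ 2 * x := by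
  have hp : 0 < x + δ := by linarith
  have g0 := gf_nonneg hδ hx
  have gL : gf δ x ≤ L := (gf_le hδ hx hT).trans hL
  rw [fb, mul_pow, Real.sq_sqrt hp.le]
  change (x + δ) * gf δ x ^ 2 ≤ _
  rcases le_total δ x with h | h
  · have h2 : gf δ x ^ 2 ≤ L ^ 2 := pow_le_pow_left₀ g0 gL 2
    nlinarith [mul_le_mul (by linarith : x + δ ≤ 2 * x) h2 (sq_nonneg _) (by linarith)]
  · -- `log (1 + u) ^ 2 ≤ u`
    set u := x / δ with hu
    have hu0 : 0 ≤ u := by positivity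
    have h3 : gf δ x ^ 2 ≤ u := by
      have h5 : gf δ x ≤ u := by
        rw [gf]
        have : (x + δ) / δ = 1 + u := by rw [hu]; field_simp; ring
        rw [this]
        have := Real.log_le_sub_one_of_pos (show (0 : ℝ) < 1 + u by linarith)
        linarith
      have hu1 : u ≤ 1 := by rw [hu, div_le_one hδ]; exact h
      nlinarith
    have h6 : (x + δ) * gf δ x ^ 2 ≤ 2 * δ * u := by
      have := mul_le_mul (by linarith : x + δ ≤ 2 * δ) h3 (sq_nonneg _) (by linarith)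
      linarith
    have h7 : 2 * δ * u = 2 * x := by rw [hu]; field_simp
    have h8 : (1 : ℝ) ≤ L ^ 2 := by nlinarith
    nlinarith

theorem fb_lip {δ T L : ℝ} (hδ : 0 < δ) (hL : gf δ T ≤ L) (x y : ℝ) (hx : 0 ≤ x) (hxT : x ≤ T)
    (hy : 0 ≤ y) (hyT : y ≤ T) :
    (fb δ x - fb δ y) ^ 2 ≤ (L + 2) ^ 2 * (et δ x - et δ y) ^ 2 := by
  wlog h : y ≤ x generalizing x y
  · have := this y x hy hyT hx hxT (le_of_not_ge h)
    nlinarith [this]
  have hX : 0 < x + δ := by linarith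
  have hY : 0 < y + δ := by linarith
  have hsX : 0 < √(x + δ) := Real.sqrt_pos.2 hX
  have hsY : 0 < √(y + δ) := Real.sqrt_pos.2 hY
  have hle : √(y + δ) ≤ √(x + δ) := Real.sqrt_le_sqrt (by linarith)
  have gx := gf_nonneg hδ hx
  have gL : gf δ x ≤ L := (gf_le hδ hx hxT).trans hL
  have e1 : gf δ x - gf δ y = 2 * Real.log (√(x + δ) / √(y + δ)) := by
    rw [gf, gf, Real.log_div hX.ne' hδ.ne', Real.log_div hY.ne' hδ.ne',
      Real.log_div hsX.ne' hsY.ne', Real.log_sqrt hX.le, Real.log_sqrt hY.le]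
    ring
  have h2 : Real.log (√(x + δ) / √(y + δ)) ≤ √(x + δ) / √(y + δ) - 1 :=
    Real.log_le_sub_one_of_pos (by positivity)
  have h3 : 0 ≤ Real.log (√(x + δ) / √(y + δ)) :=
    Real.log_nonneg (by rw [le_div_iff₀ hsY]; linarith)
  have e2 : fb δ x - fb δ y =
      (√(x + δ) - √(y + δ)) * gf δ x + √(y + δ) * (gf δ x - gf δ y) := by
    simp only [fb, gf]; ring
  have h4 : √(y + δ) * (gf δ x - gf δ y) ≤ 2 * (√(x + δ) - √(y + δ)) := by
    rw [e1]
    have h5 := mul_le_mul_of_nonneg_left h2 (by positivity : (0 : ℝ) ≤ 2 * √(y + δ))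
    have h6 : 2 * √(y + δ) * (√(x + δ) / √(y + δ) - 1) = 2 * (√(x + δ) - √(y + δ)) := by
      field_simp
    linarith
  have h5 : 0 ≤ √(y + δ) * (gf δ x - gf δ y) := by
    rw [e1]; positivity
  have hd : 0 ≤ √(x + δ) - √(y + δ) := by linarith
  have h6 : fb δ x - fb δ y ≤ (L + 2) * (et δ x - et δ y) := by
    rw [e2]
    simp only [et]
    nlinarith
  have h7 : 0 ≤ fb δ x - fb δ y := by
    rw [e2]
    positivity
  rw [← mul_pow]
  exact pow_le_pow_left₀ h7 h6 2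

/-! ### matrices -/

variable {n : Type*} [Fintype n] [DecidableEq n]

theorem eig_le {A : Matrix n n ℝ} (hA : A.IsHermitian) {T : ℝ}
    (h : (T • (1 : Matrix n n ℝ) - A).PosSemidef) (i : n) : hA.eigenvalues i ≤ T := by
  obtain ⟨U, w, h1, -, eA, -, hw⟩ := frame hA
  have h4 := h.conjTranspose_mul_mul_same U
  have h5 : Uᴴ * (T • (1 : Matrix n n ℝ) - A) * U = diagonal (fun i => T - w i) := by
    rw [Matrix.conjTranspose_eq_transpose_of_trivial, Matrix.mul_sub, Matrix.sub_mul,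
      Matrix.mul_smul, Matrix.mul_one, Matrix.smul_mul, h1]
    conv_lhs => rw [eA]
    rw [fc,
      show Uᵀ * (U * diagonal (fun i => id (w i)) * Uᵀ) * U =
        (Uᵀ * U) * diagonal (fun i => id (w i)) * (Uᵀ * U) by simp only [Matrix.mul_assoc], h1,
      Matrix.one_mul, Matrix.mul_one, ← diagonal_one, ← diagonal_smul, diagonal_sub]
    congr 1
    ext i
    simp
  rw [h5] at h4
  have h6 := (Matrix.posSemidef_diagonal_iff.1 h4) i
  rw [← hw]
  linarith

theorem fm_symm {A : Matrix n n ℝ} (hA : A.IsHermitian) (φ : ℝ → ℝ) : (fm φ A)ᵀ = fm φ A := by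
  obtain ⟨U, w, -, -, -, fA, -⟩ := frame hA
  rw [fA, fc_trans]

theorem fm_mul {A : Matrix n n ℝ} (hA : A.IsHermitian) (φ ψ : ℝ → ℝ) :
    fm φ A * fm ψ A = fm (fun x => φ x * ψ x) A := by
  obtain ⟨U, w, h1, -, -, fA, -⟩ := frame hA
  rw [fA, fA, fA, fc_mul h1]

theorem fm_id {A : Matrix n n ℝ} (hA : A.IsHermitian) : fm (fun x => x) A = A := by
  obtain ⟨U, w, -, -, eA, fA, -⟩ := frame hA
  rw [fA]
  exact eA.symm

/-- functions which agree on the eigenvalues -/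
theorem fm_congr {A : Matrix n n ℝ} (hA : A.PosSemidef) {φ ψ : ℝ → ℝ}
    (h : ∀ x, 0 ≤ x → φ x = ψ x) : fm φ A = fm ψ A := by
  obtain ⟨U, w, -, -, -, fA, hw⟩ := frame hA.isHermitian
  rw [fA, fA, fc, fc]
  have : (fun i => φ (w i)) = fun i => ψ (w i) :=
    funext fun i => h _ (by rw [hw]; exact hA.eigenvalues_nonneg i)
  rw [this]

/-- order: `φ ≤ c x` on the eigenvalues, tested against a conjugate -/
theorem tr_conj_le {A : Matrix n n ℝ} (hA : A.PosSemidef) {T c : ℝ}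
    (hT : (T • (1 : Matrix n n ℝ) - A).PosSemidef) {φ ψ : ℝ → ℝ}
    (h : ∀ x, 0 ≤ x → x ≤ T → φ x ≤ c * ψ x) (N : Matrix n n ℝ) :
    (N * fm φ A * Nᵀ).trace ≤ c * (N * fm ψ A * Nᵀ).trace := by
  obtain ⟨U, w, h1, h2, -, fA, hw⟩ := frame hA.isHermitian
  have key : ∀ χ : ℝ → ℝ, (N * fm χ A * Nᵀ).trace = ∑ i, χ (w i) * (Uᵀ * (Nᵀ * N) * U) i i := by
    intro χ
    rw [Matrix.mul_assoc, Matrix.trace_mul_comm, Matrix.mul_assoc, fA, tr_fc_mul]
  have hp : ∀ i, 0 ≤ (Uᵀ * (Nᵀ * N) * U) i i := fun i => by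
    have : Uᵀ * (Nᵀ * N) * U = (N * U)ᵀ * (N * U) := by
      rw [Matrix.transpose_mul]; simp only [Matrix.mul_assoc]
    rw [this, Matrix.mul_apply]
    exact sum_nonneg fun j _ => by rw [Matrix.transpose_apply]; exact mul_self_nonneg _
  rw [key, key, mul_sum]
  refine sum_le_sum fun i _ => ?_
  have h3 := h (w i) (by rw [hw]; exact hA.eigenvalues_nonneg i)
    (by rw [hw]; exact eig_le hA.isHermitian hT i)
  nlinarith [mul_le_mul_of_nonneg_right h3 (hp i)]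

/-- the entropy -/
def En (δ : ℝ) (A : Matrix n n ℝ) : ℝ := (fm (ff δ) A).trace

/-- **the gap**: `mean En - En mean` controls the square roots -/
theorem gap_ge {δ : ℝ} (hδ : 0 < δ) {P Q : Matrix n n ℝ} (hP : P.PosSemidef)
    (hQ : Q.PosSemidef) :
    (1 / 2) * (hs (fm (et δ) P - fm (et δ) ((1 / 2 : ℝ) • (P + Q))) +
      hs (fm (et δ) Q - fm (et δ) ((1 / 2 : ℝ) • (P + Q)))) ≤
      (1 / 2) * (En δ P + En δ Q) - En δ ((1 / 2 : ℝ) • (P + Q)) := by
  have hM : ((1 / 2 : ℝ) • (P + Q)).PosSemidef := (hP.add hQ).smul (by norm_num)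
  have h1 := tr_klein hP hM (fun x y hx hy => ff_bregman hδ x y hx hy)
  have h2 := tr_klein hQ hM (fun x y hx hy => ff_bregman hδ x y hx hy)
  have h3 : (fm (gf δ) ((1 / 2 : ℝ) • (P + Q)) * (P - (1 / 2 : ℝ) • (P + Q))).trace +
      (fm (gf δ) ((1 / 2 : ℝ) • (P + Q)) * (Q - (1 / 2 : ℝ) • (P + Q))).trace = 0 := by
    rw [← trace_add, ← Matrix.mul_add]
    have : (P - (1 / 2 : ℝ) • (P + Q)) + (Q - (1 / 2 : ℝ) • (P + Q)) = 0 := by module
    rw [this, Matrix.mul_zero, trace_zero]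
  simp only [En]
  linarith

omit [DecidableEq n] in
theorem hs_add_le (A B : Matrix n n ℝ) : hs (A + B) ≤ 2 * (hs A + hs B) := by
  simp only [hs, Matrix.add_apply]
  rw [mul_add, mul_sum, mul_sum, ← sum_add_distrib]
  refine sum_le_sum fun i _ => ?_
  rw [mul_sum, mul_sum, ← sum_add_distrib]
  exact sum_le_sum fun j _ => by nlinarith [sq_nonneg (A i j - B i j)]

omit [DecidableEq n] in
theorem hs_neg (A : Matrix n n ℝ) : hs (-A) = hs A := by simp [hs]

theorem gap_ge' {δ : ℝ} (hδ : 0 < δ) {P Q : Matrix n n ℝ} (hP : P.PosSemidef)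
    (hQ : Q.PosSemidef) :
    (1 / 4) * hs (fm (et δ) P - fm (et δ) Q) ≤
      (1 / 2) * (En δ P + En δ Q) - En δ ((1 / 2 : ℝ) • (P + Q)) := by
  have h := gap_ge hδ hP hQ
  have h1 := hs_add_le (fm (et δ) P - fm (et δ) ((1 / 2 : ℝ) • (P + Q)))
    (-(fm (et δ) Q - fm (et δ) ((1 / 2 : ℝ) • (P + Q))))
  rw [hs_neg] at h1
  have e : fm (et δ) P - fm (et δ) ((1 / 2 : ℝ) • (P + Q)) +
      -(fm (et δ) Q - fm (et δ) ((1 / 2 : ℝ) • (P + Q))) = fm (et δ) P - fm (et δ) Q := by abel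
  rw [e] at h1
  linarith

/-- the first order weight `x * log (1 + x / δ)` -/
def th (δ x : ℝ) : ℝ := x * gf δ x

/-- **the first order term is a product of two square summable quantities** -/
theorem theta_le {δ T L : ℝ} (hδ : 0 < δ) (hL : gf δ T ≤ L) (h1 : 1 ≤ L) {P Q : Matrix n n ℝ}
    (hP : P.PosSemidef) (hQ : Q.PosSemidef) (tP : (T • (1 : Matrix n n ℝ) - P).PosSemidef)
    (tQ : (T • (1 : Matrix n n ℝ) - Q).PosSemidef) (N : Matrix n n ℝ) :
    |(N * (fm (th δ) P - fm (th δ) Q)).trace| ≤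
      6 * L * √((Nᵀ * P * N).trace + (N * Q * Nᵀ).trace) * √(hs (fm (et δ) P - fm (et δ) Q)) := by
  have eP : fm (th δ) P = fm (fa δ) P * fm (fb δ) P := by
    rw [fm_mul hP.isHermitian]
    exact fm_congr hP fun x hx => (th_eq hδ hx).symm
  have eQ : fm (th δ) Q = fm (fa δ) Q * fm (fb δ) Q := by
    rw [fm_mul hQ.isHermitian]
    exact fm_congr hQ fun x hx => (th_eq hδ hx).symm
  have e : (N * (fm (th δ) P - fm (th δ) Q)).trace =
      ((fm (fb δ) P * N) * (fm (fa δ) P - fm (fa δ) Q)).trace +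
        ((N * fm (fa δ) Q) * (fm (fb δ) P - fm (fb δ) Q)).trace := by
    have e0 : N * (fm (fa δ) P * fm (fb δ) P - fm (fa δ) Q * fm (fb δ) Q) =
      (N * (fm (fa δ) P - fm (fa δ) Q)) * fm (fb δ) P +
        N * fm (fa δ) Q * (fm (fb δ) P - fm (fb δ) Q) := by noncomm_ring
    have e1 : ((N * (fm (fa δ) P - fm (fa δ) Q)) * fm (fb δ) P).trace =
        ((fm (fb δ) P * N) * (fm (fa δ) P - fm (fa δ) Q)).trace := by
      rw [Matrix.trace_mul_comm]
      simp only [Matrix.mul_assoc]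
    rw [eP, eQ, e0, trace_add, e1]
  set D := hs (fm (et δ) P - fm (et δ) Q) with hD
  have D0 : 0 ≤ D := hs_nonneg _
  set p := (Nᵀ * P * N).trace with hp
  set q := (N * Q * Nᵀ).trace with hq
  have p0 : 0 ≤ p := by
    have := hP.conjTranspose_mul_mul_same N
    rw [Matrix.conjTranspose_eq_transpose_of_trivial] at this
    exact this.trace_nonneg
  have q0 : 0 ≤ q := by
    have := hQ.mul_mul_conjTranspose_same N
    rw [Matrix.conjTranspose_eq_transpose_of_trivial] at this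
    exact this.trace_nonneg
  -- the four factors
  have f1 : hs (fm (fb δ) P * N)ᵀ ≤ 2 * L ^ 2 * p := by
    have e1 : hs (fm (fb δ) P * N)ᵀ = (Nᵀ * fm (fun x => fb δ x * fb δ x) P * (Nᵀ)ᵀ).trace := by
      rw [hs_eq', ← fm_mul hP.isHermitian]
      simp only [Matrix.transpose_mul, Matrix.transpose_transpose, fm_symm hP.isHermitian,
        Matrix.mul_assoc]
    have e2 : p = (Nᵀ * fm (fun x => x) P * (Nᵀ)ᵀ).trace := by
      rw [fm_id hP.isHermitian, Matrix.transpose_transpose]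
    rw [e1, e2]
    exact tr_conj_le hP tP (fun x hx hx' => by
      have := fb_sq_le hδ hx hx' hL h1
      nlinarith [this]) Nᵀ
  have f2 : hs (fm (fa δ) P - fm (fa δ) Q) ≤ 4 * D :=
    hs_lip hP hQ tP tQ fun x y hx _ hy _ => fa_lip hδ x y hx hy
  have f3 : hs (N * fm (fa δ) Q)ᵀ ≤ 1 * q := by
    have e1 : hs (N * fm (fa δ) Q)ᵀ = (N * fm (fun x => fa δ x * fa δ x) Q * Nᵀ).trace := by
      rw [hs_eq, ← fm_mul hQ.isHermitian]
      simp only [Matrix.transpose_mul, Matrix.transpose_transpose, fm_symm hQ.isHermitian,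
        Matrix.mul_assoc]
    have e2 : q = (N * fm (fun x => x) Q * Nᵀ).trace := by
      rw [fm_id hQ.isHermitian]
    rw [e1, e2]
    exact tr_conj_le hQ tQ (fun x hx _ => by
      have := fa_sq_le hδ hx
      nlinarith [this]) N
  have f4 : hs (fm (fb δ) P - fm (fb δ) Q) ≤ (L + 2) ^ 2 * D :=
    hs_lip hP hQ tP tQ fun x y hx hx' hy hy' => fb_lip hδ hL x y hx hx' hy hy'
  have g1 := tr_cs (fm (fb δ) P * N) (fm (fa δ) P - fm (fa δ) Q)
  have g2 := tr_cs (N * fm (fa δ) Q) (fm (fb δ) P - fm (fb δ) Q)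
  have k1 : √(hs (fm (fb δ) P * N)ᵀ) * √(hs (fm (fa δ) P - fm (fa δ) Q)) ≤
      (3 * L) * √(p + q) * √D := by
    have a1 : √(hs (fm (fb δ) P * N)ᵀ) ≤ (3 / 2 * L) * √(p + q) := by
      rw [show (3 / 2 * L) * √(p + q) = √((3 / 2 * L) ^ 2 * (p + q)) by
        rw [Real.sqrt_mul (sq_nonneg _), Real.sqrt_sq (by linarith)]]
      refine Real.sqrt_le_sqrt (f1.trans ?_)
      have : 0 ≤ L ^ 2 * p := by positivity
      have : 0 ≤ L ^ 2 * q := by positivity
      nlinarith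
    have a2 : √(hs (fm (fa δ) P - fm (fa δ) Q)) ≤ 2 * √D := by
      rw [show 2 * √D = √(4 * D) by
        rw [Real.sqrt_mul (by norm_num), show (4 : ℝ) = 2 ^ 2 by norm_num,
          Real.sqrt_sq (by norm_num)]]
      exact Real.sqrt_le_sqrt f2
    calc _ ≤ ((3 / 2 * L) * √(p + q)) * (2 * √D) :=
          mul_le_mul a1 a2 (Real.sqrt_nonneg _) (by positivity)
      _ = _ := by ring
  have k2 : √(hs (N * fm (fa δ) Q)ᵀ) * √(hs (fm (fb δ) P - fm (fb δ) Q)) ≤
      (3 * L) * √(p + q) * √D := by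
    have a1 : √(hs (N * fm (fa δ) Q)ᵀ) ≤ √(p + q) :=
      Real.sqrt_le_sqrt (f3.trans (by linarith))
    have a2 : √(hs (fm (fb δ) P - fm (fb δ) Q)) ≤ (3 * L) * √D := by
      rw [show (3 * L) * √D = √((3 * L) ^ 2 * D) by
        rw [Real.sqrt_mul (sq_nonneg _), Real.sqrt_sq (by linarith)]]
      refine Real.sqrt_le_sqrt (f4.trans ?_)
      exact mul_le_mul_of_nonneg_right (pow_le_pow_left₀ (by linarith) (by linarith) 2) D0
    calc _ ≤ √(p + q) * ((3 * L) * √D) :=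
          mul_le_mul a1 a2 (Real.sqrt_nonneg _) (Real.sqrt_nonneg _)
      _ = _ := by ring
  rw [e]
  refine (abs_add_le _ _).trans ?_
  have := add_le_add (g1.trans k1) (g2.trans k2)
  linarith

end

end Vale.Agent.P141.H818
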